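import Vale.Agent.P209.H447.Nec.Pre

/-!
# P209, row G1 of the necessity part: the lifted Hamiltonian and its field
-/

namespace Vale.Agent.P209.H447.Nec

open scoped ContDiff Topology
open Vale.Agent.P209.H710.Nec

noncomputable section

universe u

section Sig

variable {V : Type u} [NormedAddCommGroup V] [InnerProductSpace ℂ V] {n : ℕ}
  {e : V ≃ₗ[ℂ] ℂ × (Fin n → ℂ)}

theorem nsq_add_smul (y u : Fin n → ℂ) (t : ℝ) :
    nsq (y + t • u) = nsq y + 2 * t * ∑ j, ((starRingEnd ℂ) (y j) * u j).re + t ^ 2 * nsq u := by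
  simp only [nsq, Finset.mul_sum, ← Finset.sum_add_distrib]
  refine Finset.sum_congr rfl fun j _ => ?_
  simp only [Pi.add_apply, Pi.smul_apply, Complex.sq_norm, Complex.normSq_apply, Complex.add_re,
    Complex.add_im, Complex.smul_re, Complex.smul_im, smul_eq_mul,
    Complex.mul_re, Complex.conj_re, Complex.conj_im]
  ring

/-- The section is differentiable along lines. -/
theorem hasDerivAt_sig [FiniteDimensional ℂ V] {y : Fin n → ℂ} (hy : y ∈ openBall n 1)
    (u : Fin n → ℂ) : HasDerivAt (fun t : ℝ => sig e (y + t • u)) (dsig e y u) 0 := by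
  have h1 := rad_pos hy
  set S : ℝ := ∑ j, ((starRingEnd ℂ) (y j) * u j).re with hS
  have h2 : HasDerivAt (fun t : ℝ => 1 / Real.pi - (nsq y + 2 * t * S + t ^ 2 * nsq u))
      (-(2 * S)) 0 := by
    have h : HasDerivAt (fun t : ℝ => nsq y + 2 * t * S + t ^ 2 * nsq u) (2 * S) 0 := by
      have ha : HasDerivAt (fun t : ℝ => 2 * t * S) (2 * 1 * S) 0 :=
        ((hasDerivAt_id (0 : ℝ)).const_mul 2).mul_const S
      have hb : HasDerivAt (fun t : ℝ => t ^ 2 * nsq u) ((2 : ℕ) * 0 ^ (2 - 1) * nsq u) 0 :=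
        (hasDerivAt_pow 2 (0 : ℝ)).mul_const (nsq u)
      have hc := (ha.const_add (nsq y)).add hb
      exact hc.congr_deriv (by norm_num)
    have h' := h.const_sub (1 / Real.pi)
    exact h'
  have h3 : HasDerivAt (fun t : ℝ => rad (y + t • u)) (-S / rad y) 0 := by
    have h4 : (1 / Real.pi - (nsq y + 2 * 0 * S + 0 ^ 2 * nsq u)) ≠ 0 := by
      have := Real.sqrt_pos.mp h1
      simp only [mul_zero, zero_mul, add_zero, ne_eq, OfNat.ofNat_ne_zero, not_false_eq_true,
        zero_pow]
      exact this.ne'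
    have h5 := h2.sqrt h4
    have h6 : (fun t : ℝ => rad (y + t • u)) =
        fun t : ℝ => Real.sqrt (1 / Real.pi - (nsq y + 2 * t * S + t ^ 2 * nsq u)) := by
      funext t
      rw [rad, nsq_add_smul]
    rw [h6]
    have h7 : -(2 * S) / (2 * Real.sqrt (1 / Real.pi - (nsq y + 2 * 0 * S + 0 ^ 2 * nsq u))) =
        -S / rad y := by
      rw [rad]
      simp only [mul_zero, zero_mul, add_zero, ne_eq, OfNat.ofNat_ne_zero, not_false_eq_true,
        zero_pow]
      rw [← mul_neg, mul_div_mul_left _ _ (two_ne_zero)]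
    rw [← h7]
    exact h5
  have h4 : HasDerivAt (fun t : ℝ => ((rad (y + t • u) : ℝ) : ℂ)) ((-S / rad y : ℝ) : ℂ) 0 :=
    h3.ofReal_comp
  have h5 : HasDerivAt (fun t : ℝ => y + t • u) u 0 := by
    have := ((hasDerivAt_id (0 : ℝ)).smul_const u).const_add y
    simpa using this
  have h6 : HasDerivAt (fun t : ℝ => (((rad (y + t • u) : ℝ) : ℂ), y + t • u))
      (((-S / rad y : ℝ) : ℂ), u) 0 := h4.prodMk h5
  set L : (ℂ × (Fin n → ℂ)) →L[ℝ] V :=
    (LinearMap.toContinuousLinearMap e.symm.toLinearMap).restrictScalars ℝ with hL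
  have hLe : ∀ x, L x = e.symm x := fun x => rfl
  have h7 := (L.hasFDerivAt (x := (((rad (y + (0 : ℝ) • u) : ℝ) : ℂ), y + (0 : ℝ) • u))).comp_hasDerivAt
    (0 : ℝ) h6
  exact h7

theorem om_dsig (he : IsUni e) (y v u : Fin n → ℂ) :
    om (dsig e y v) (dsig e y u) = omega v u := by
  rw [om_apply, he]
  simp only [dsig, LinearEquiv.apply_symm_apply, Complex.conj_ofReal, Complex.add_im,
    Complex.im_sum, Complex.mul_im, Complex.conj_re, Complex.conj_im, Complex.ofReal_re,
    Complex.ofReal_im, mul_zero, zero_mul, add_zero, zero_add, omega]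
  refine Finset.sum_congr rfl fun j _ => ?_
  ring

theorem re_inner_sig_dsig (he : IsUni e) {y : Fin n → ℂ} (hy : y ∈ openBall n 1)
    (u : Fin n → ℂ) : (inner ℂ (sig e y) (dsig e y u) : ℂ).re = 0 := by
  have h1 := rad_pos hy
  rw [he]
  simp only [dsig, sig, LinearEquiv.apply_symm_apply, Complex.conj_ofReal, Complex.add_re,
    Complex.re_sum, Complex.re_ofReal_mul, Complex.ofReal_re]
  rw [mul_div_cancel₀ _ h1.ne']
  ring

/-- Every vector is the sum of a tangent vector of the section and a multiple of the base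
point. -/
theorem exists_decomp {y : Fin n → ℂ} (hy : y ∈ openBall n 1) (w : V) :
    ∃ (u : Fin n → ℂ) (a : ℂ), w = dsig e y u + a • sig e y := by
  have h1 := rad_pos hy
  have h : Real.pi * nsq y < 1 := hy
  have h2 : rad y ^ 2 = 1 / Real.pi - nsq y := by
    rw [rad, Real.sq_sqrt]
    rw [sub_nonneg, le_div_iff₀ Real.pi_pos, mul_comm]; exact h.le
  set q : ℝ := ∑ j, ((starRingEnd ℂ) (y j) * (e w).2 j).re with hq
  set al : ℝ := Real.pi * (rad y * (e w).1.re + q) with hal
  set be : ℝ := (e w).1.im / rad y with hbe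
  set a : ℂ := ⟨al, be⟩ with ha
  refine ⟨(e w).2 - a • y, a, ?_⟩
  apply e.injective
  rw [map_add, map_smul, dsig, sig, LinearEquiv.apply_symm_apply, LinearEquiv.apply_symm_apply]
  refine Prod.ext ?_ ?_
  · simp only [Prod.fst_add, Prod.smul_fst, smul_eq_mul]
    have h3 : ∑ j, ((starRingEnd ℂ) (y j) * ((e w).2 - a • y) j).re = q - al * nsq y := by
      rw [hq, nsq, Finset.mul_sum, ← Finset.sum_sub_distrib]
      refine Finset.sum_congr rfl fun j _ => ?_
      simp only [Pi.sub_apply, Pi.smul_apply, smul_eq_mul, Complex.mul_re, Complex.sub_re,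
        Complex.sub_im, Complex.mul_im, Complex.conj_re, Complex.conj_im, Complex.sq_norm,
        Complex.normSq_apply, ha]
      ring
    rw [h3]
    have h4 : nsq y = 1 / Real.pi - rad y ^ 2 := by linarith
    apply Complex.ext
    · simp only [Complex.add_re, Complex.ofReal_re, Complex.mul_re, Complex.ofReal_im, mul_zero,
        sub_zero, ha]
      rw [h4, hal]
      have := Real.pi_pos
      field_simp
      ring
    · simp only [Complex.add_im, Complex.ofReal_im, Complex.mul_im, Complex.ofReal_re, mul_zero,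
        zero_add, ha, hbe]
      field_simp
  · simp

end Sig

section Main

variable {V : Type u} [NormedAddCommGroup V] [InnerProductSpace ℂ V] {n : ℕ}
  {e : V ≃ₗ[ℂ] ℂ × (Fin n → ℂ)} {H : (Fin n → ℂ) → ℝ}

theorem cone_bound (he : IsUni e) (hc : HasCompactSupport H) (hs : tsupport H ⊆ openBall n 1) :
    ∃ d : ℝ, 0 < d ∧ ∀ z, (e z).1 ≠ 0 → chart e z ∈ tsupport H →
      d * ‖z‖ ^ 2 ≤ ‖(e z).1‖ ^ 2 := by
  have hcont : Continuous fun y : Fin n → ℂ => Real.pi * nsq y := by
    unfold nsq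
    fun_prop
  obtain ⟨q, hq1, hq2⟩ : ∃ q : ℝ, q < 1 ∧ ∀ y ∈ tsupport H, Real.pi * nsq y ≤ q := by
    by_cases hne : (tsupport H).Nonempty
    · obtain ⟨y₀, hy₀, hmax⟩ := IsCompact.exists_isMaxOn hc hne hcont.continuousOn
      exact ⟨Real.pi * nsq y₀, hs hy₀, fun y hy => hmax hy⟩
    · exact ⟨0, by norm_num, fun y hy => (hne ⟨y, hy⟩).elim⟩
  refine ⟨1 - q, by linarith, fun z hz hz' => ?_⟩
  have h1 := nsq_chart he z hz
  have h2 := hq2 _ hz'
  nlinarith [sq_nonneg ‖z‖]

variable [FiniteDimensional ℂ V]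

theorem e_continuous : Continuous e :=
  (LinearMap.toContinuousLinearMap e.toLinearMap).continuous

theorem lift_contDiffAt (he : IsUni e) (hH : ContDiff ℝ ∞ H) (hc : HasCompactSupport H)
    (hs : tsupport H ⊆ openBall n 1) (z : V) (hz : z ≠ 0) : ContDiffAt ℝ ∞ (lift e H) z := by
  obtain ⟨d, hd, hdz⟩ := cone_bound he hc hs
  have hec : Continuous fun x : V => (e x).1 := continuous_fst.comp e_continuous
  by_cases h0 : (e z).1 = 0
  · have hopen : IsOpen {x : V | ‖(e x).1‖ ^ 2 < d * ‖x‖ ^ 2} :=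
      isOpen_lt (by fun_prop) (by fun_prop)
    have hmem : z ∈ {x : V | ‖(e x).1‖ ^ 2 < d * ‖x‖ ^ 2} := by
      have h3 : 0 < ‖z‖ := norm_pos_iff.mpr hz
      have h4 : ‖(e z).1‖ ^ 2 < d * ‖z‖ ^ 2 := by
        rw [h0, norm_zero, zero_pow two_ne_zero]
        positivity
      exact h4
    have hev : lift e H =ᶠ[𝓝 z] fun _ => (0 : ℝ) := by
      filter_upwards [hopen.mem_nhds hmem] with x hx
      rw [lift]
      split_ifs with hx0
      · rfl
      · have : chart e x ∉ tsupport H := fun h => absurd (hdz x hx0 h) (not_le.mpr hx)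
        rw [image_eq_zero_of_notMem_tsupport this, mul_zero]
    exact contDiffAt_const.congr_of_eventuallyEq hev
  · have hopen : IsOpen {x : V | (e x).1 ≠ 0} := isOpen_ne.preimage hec
    have hev : lift e H =ᶠ[𝓝 z] fun x => Real.pi * ‖x‖ ^ 2 * H (chart e x) := by
      filter_upwards [hopen.mem_nhds h0] with x hx
      rw [lift, if_neg hx]
    have h1 : ContDiffAt ℝ ∞ (fun x : V => Real.pi * ‖x‖ ^ 2) z :=
      contDiffAt_const.mul ((contDiffAt_norm ℂ hz).pow 2)
    have h2 : ContDiffAt ℝ ∞ (fun x : V => H (chart e x)) z :=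
      hH.contDiffAt.comp z (chart_contDiffAt z h0)
    exact (h1.mul h2).congr_of_eventuallyEq hev

omit [FiniteDimensional ℂ V] in
theorem lift_le (he : IsUni e) (hH : ContDiff ℝ ∞ H) (hc : HasCompactSupport H)
    (hs : tsupport H ⊆ openBall n 1) : ∃ C : ℝ, ∀ z : V, |lift e H z| ≤ C * ‖(e z).1‖ ^ 2 := by
  obtain ⟨d, hd, hdz⟩ := cone_bound he hc hs
  obtain ⟨M, hM⟩ := hc.exists_bound_of_continuous hH.continuous
  have hM0 : 0 ≤ M := (norm_nonneg _).trans (hM 0)
  refine ⟨Real.pi * M / d, fun z => ?_⟩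
  have hpi := Real.pi_pos
  rw [lift]
  split_ifs with h0
  · simp [h0]
  · by_cases h1 : chart e z ∈ tsupport H
    · have h2 := hdz z h0 h1
      have h3 : |H (chart e z)| ≤ M := hM _
      rw [abs_mul, abs_of_nonneg (by positivity)]
      calc Real.pi * ‖z‖ ^ 2 * |H (chart e z)| ≤ Real.pi * ‖z‖ ^ 2 * M := by gcongr
        _ = Real.pi * M / d * (d * ‖z‖ ^ 2) := by field_simp
        _ ≤ Real.pi * M / d * ‖(e z).1‖ ^ 2 := by gcongr
    · rw [image_eq_zero_of_notMem_tsupport h1, mul_zero, abs_zero]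
      positivity

omit [FiniteDimensional ℂ V] in
theorem lift_hasFDerivAt_zero (he : IsUni e) (hH : ContDiff ℝ ∞ H) (hc : HasCompactSupport H)
    (hs : tsupport H ⊆ openBall n 1) : HasFDerivAt (lift e H) (0 : V →L[ℝ] ℝ) 0 := by
  obtain ⟨C, hC⟩ := lift_le (V := V) he hH hc hs
  have h0 : lift e H (0 : V) = 0 := by simp [lift]
  have hb : ∀ z : V, |lift e H z| ≤ |C| * ‖z‖ ^ 2 := by
    intro z
    refine (hC z).trans ?_
    have h1 : ‖(e z).1‖ ^ 2 ≤ ‖z‖ ^ 2 := by
      rw [IsUni.norm_sq he z]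
      have : 0 ≤ nsq (e z).2 := Finset.sum_nonneg fun j _ => sq_nonneg _
      linarith
    calc C * ‖(e z).1‖ ^ 2 ≤ |C| * ‖(e z).1‖ ^ 2 := by gcongr; exact le_abs_self C
      _ ≤ |C| * ‖z‖ ^ 2 := by gcongr
  rw [hasFDerivAt_iff_isLittleO_nhds_zero]
  simp only [zero_add, h0, sub_zero, _root_.zero_apply]
  have h1 : (fun h : V => lift e H h) =O[𝓝 0] fun h : V => ‖h‖ ^ 2 := by
    refine Asymptotics.IsBigO.of_bound |C| (Filter.Eventually.of_forall fun h => ?_)
    rw [Real.norm_eq_abs, Real.norm_of_nonneg (sq_nonneg _)]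
    exact hb h
  exact h1.trans_isLittleO (Asymptotics.isLittleO_norm_pow_id one_lt_two)

/-- The field of the lifted Hamiltonian. -/
def fld (e : V ≃ₗ[ℂ] ℂ × (Fin n → ℂ)) (H : (Fin n → ℂ) → ℝ) (z : V) : V :=
  Classical.choose (exists_om (fderiv ℝ (lift e H) z))

theorem om_fld (z : V) : om (fld e H z) = fderiv ℝ (lift e H) z :=
  Classical.choose_spec (exists_om (fderiv ℝ (lift e H) z))

section Fld

variable (he : IsUni e) (hH : ContDiff ℝ ∞ H) (hc : HasCompactSupport H)
    (hs : tsupport H ⊆ openBall n 1)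

include he hH hc hs

theorem lift_hasFDerivAt (z : V) : HasFDerivAt (lift e H) (om (fld e H z)) z := by
  rw [om_fld]
  by_cases hz : z = 0
  · subst hz
    exact (lift_hasFDerivAt_zero he hH hc hs).differentiableAt.hasFDerivAt
  · exact ((lift_contDiffAt he hH hc hs z hz).differentiableAt (by simp)).hasFDerivAt

theorem fld_zero : fld e H (0 : V) = 0 := by
  apply om_injective
  rw [om_fld, om_zero, (lift_hasFDerivAt_zero he hH hc hs).fderiv]

theorem fld_smul (a : ℂ) (z : V) : fld e H (a • z) = a • fld e H z := by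
  by_cases ha : a = 0
  · rw [ha, zero_smul, zero_smul, fld_zero he hH hc hs]
  apply om_injective
  have h1 := lift_hasFDerivAt he hH hc hs (a • z)
  set L : V →L[ℝ] V := (a • ContinuousLinearMap.id ℂ V).restrictScalars ℝ with hL
  have hL1 : ∀ x, L x = a • x := fun x => rfl
  have h2 : HasFDerivAt (fun x : V => lift e H (L x)) ((om (fld e H (a • z))).comp L) z :=
    HasFDerivAt.comp z (g := lift e H) (f := fun x => L x) (by exact h1) L.hasFDerivAt
  have h3 : HasFDerivAt (fun x : V => lift e H (L x)) (‖a‖ ^ 2 • om (fld e H z)) z := by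
    have h4 : (fun x : V => lift e H (L x)) = fun x : V => ‖a‖ ^ 2 * lift e H x := by
      funext x
      rw [hL1, lift_smul]
    rw [h4]
    exact (lift_hasFDerivAt he hH hc hs z).const_mul _
  have h5 := h2.unique h3
  ext v
  have h6 : v = a • (a⁻¹ • v) := by rw [smul_smul, mul_inv_cancel₀ ha, one_smul]
  have h7 : om (fld e H (a • z)) (a • (a⁻¹ • v)) = ‖a‖ ^ 2 * om (fld e H z) (a⁻¹ • v) := by
    have := congrArg (fun φ : V →L[ℝ] ℝ => φ (a⁻¹ • v)) h5
    exact this
  rw [h6, h7, om_smul_smul]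

theorem fld_lip : ∃ K : ℝ, ∀ z w : V, ‖fld e H z - fld e H w‖ ≤ K * ‖z - w‖ := by
  have : FiniteDimensional ℝ V := FiniteDimensional.complexToReal V
  obtain ⟨K, hK⟩ := lip_of_hom (fderiv ℝ (lift e H : V → ℝ))
    (fun z hz => (lift_contDiffAt he hH hc hs z hz).fderiv_right (WithTop.coe_le_coe.mpr le_top))
    (by
      intro t ht z
      rw [← om_fld, ← om_fld]
      have h1 : t • z = (t : ℂ) • z := rfl
      rw [h1, fld_smul he hH hc hs]
      ext v
      change (inner ℂ ((t : ℂ) • fld e H z) v : ℂ).im = t * (inner ℂ (fld e H z) v : ℂ).im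
      rw [inner_smul_left, Complex.conj_ofReal, Complex.im_ofReal_mul])
  refine ⟨K, fun z w => ?_⟩
  refine (norm_sub_le_om _ _).trans ?_
  rw [om_fld, om_fld]
  exact hK z w

theorem fld_off (z : V) (hz : z ∉ cone e (tsupport H)) : fld e H z = 0 := by
  by_cases hz0 : z = 0
  · rw [hz0, fld_zero he hH hc hs]
  obtain ⟨d, hd, hdz⟩ := cone_bound he hc hs
  have hec : Continuous fun x : V => (e x).1 := continuous_fst.comp e_continuous
  apply om_injective
  rw [om_fld, om_zero]
  have hev : lift e H =ᶠ[𝓝 z] fun _ => (0 : ℝ) := by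
    by_cases h0 : (e z).1 = 0
    · have hopen : IsOpen {x : V | ‖(e x).1‖ ^ 2 < d * ‖x‖ ^ 2} :=
        isOpen_lt (by fun_prop) (by fun_prop)
      have hmem : z ∈ {x : V | ‖(e x).1‖ ^ 2 < d * ‖x‖ ^ 2} := by
        have h3 : 0 < ‖z‖ := norm_pos_iff.mpr hz0
        have h4 : ‖(e z).1‖ ^ 2 < d * ‖z‖ ^ 2 := by
          rw [h0, norm_zero, zero_pow two_ne_zero]
          positivity
        exact h4
      filter_upwards [hopen.mem_nhds hmem] with x hx
      rw [lift]
      split_ifs with hx0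
      · rfl
      · have : chart e x ∉ tsupport H := fun h => absurd (hdz x hx0 h) (not_le.mpr hx)
        rw [image_eq_zero_of_notMem_tsupport this, mul_zero]
    · have h1 : chart e z ∉ tsupport H := fun h => hz ⟨h0, h⟩
      have h2 : ∀ᶠ x in 𝓝 z, chart e x ∉ tsupport H :=
        (chart_contDiffAt z h0).continuousAt.eventually
          ((isClosed_tsupport H).isOpen_compl.mem_nhds h1)
      filter_upwards [h2] with x hx
      rw [lift]
      split_ifs with hx0
      · rfl
      · rw [image_eq_zero_of_notMem_tsupport hx, mul_zero]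
  rw [hev.fderiv_eq]
  exact fderiv_const_apply _

theorem fld_sig {Y : (Fin n → ℂ) → (Fin n → ℂ)} (hY : IsField H Y) {y : Fin n → ℂ}
    (hy : y ∈ openBall n 1) : fld e H (sig e y : V) = dsig e y (Y y) +
      ((vert e H y (Y y) : ℝ) * Complex.I : ℂ) • sig e y := by
  apply om_injective
  ext w
  obtain ⟨u, a, rfl⟩ := exists_decomp (e := e) hy w
  have hG := lift_hasFDerivAt he hH hc hs (sig e y)
  have hopen : IsOpen (openBall n 1) := by
    have hcont : Continuous fun y : Fin n → ℂ => Real.pi * ∑ j, ‖y j‖ ^ 2 := by fun_prop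
    exact isOpen_lt hcont continuous_const
  -- the tangential part
  have h1 : om (fld e H (sig e y : V)) (dsig e y u) = omega (Y y) u := by
    have h2 : HasDerivAt (fun t : ℝ => lift e H (sig e (y + t • u) : V))
        (om (fld e H (sig e y : V)) (dsig e y u)) 0 := by
      refine HasFDerivAt.comp_hasDerivAt (l := lift e H)
        (f := fun t : ℝ => (sig e (y + t • u) : V)) 0 ?_ (hasDerivAt_sig hy u)
      simpa using hG
    have h3 : HasDerivAt (fun t : ℝ => y + t • u) u 0 := by
      have := ((hasDerivAt_id (0 : ℝ)).smul_const u).const_add y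
      simpa using this
    have h4 : HasDerivAt (fun t : ℝ => H (y + t • u)) (fderiv ℝ H y u) 0 := by
      refine HasFDerivAt.comp_hasDerivAt (l := H) (f := fun t : ℝ => y + t • u) 0 ?_ h3
      have : HasFDerivAt H (fderiv ℝ H y) y :=
        ((hH.differentiable (by simp)) y).hasFDerivAt
      simpa using this
    have h5 : (fun t : ℝ => lift e H (sig e (y + t • u) : V)) =ᶠ[𝓝 0]
        fun t : ℝ => H (y + t • u) := by
      have h6 : ∀ᶠ t in 𝓝 (0 : ℝ), y + t • u ∈ openBall n 1 := by
        refine h3.continuousAt.eventually (hopen.mem_nhds ?_)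
        simpa using hy
      filter_upwards [h6] with t ht
      exact lift_sig he H ht
    rw [hY y u]
    exact (h2.congr_of_eventuallyEq h5.symm).unique h4
  -- the vertical part
  have h2 : om (fld e H (sig e y : V)) (a • sig e y) = 2 * a.re * H y := by
    have h3 : HasDerivAt (fun t : ℝ => (1 + (t : ℂ) * a) • (sig e y : V)) (a • sig e y) 0 := by
      have h4 : HasDerivAt (fun t : ℝ => (1 + (t : ℂ) * a)) a 0 := by
        have := ((hasDerivAt_id (0 : ℝ)).ofReal_comp.mul_const a).const_add (1 : ℂ)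
        simpa using this
      exact h4.smul_const _
    have h4 : HasDerivAt (fun t : ℝ => lift e H ((1 + (t : ℂ) * a) • (sig e y : V)))
        (om (fld e H (sig e y : V)) (a • sig e y)) 0 := by
      refine HasFDerivAt.comp_hasDerivAt (l := lift e H)
        (f := fun t : ℝ => (1 + (t : ℂ) * a) • (sig e y : V)) 0 ?_ h3
      simpa using hG
    have h5 : (fun t : ℝ => lift e H ((1 + (t : ℂ) * a) • (sig e y : V))) =
        fun t : ℝ => (1 + 2 * t * a.re + t ^ 2 * ‖a‖ ^ 2) * H y := by
      funext t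
      rw [lift_smul, lift_sig he H hy]
      congr 1
      rw [Complex.sq_norm, Complex.sq_norm, Complex.normSq_apply, Complex.normSq_apply]
      simp only [Complex.add_re, Complex.one_re, Complex.re_ofReal_mul, Complex.add_im,
        Complex.one_im, Complex.im_ofReal_mul]
      ring
    have h6 : HasDerivAt (fun t : ℝ => (1 + 2 * t * a.re + t ^ 2 * ‖a‖ ^ 2) * H y)
        (2 * a.re * H y) 0 := by
      have ha : HasDerivAt (fun t : ℝ => 2 * t * a.re) (2 * 1 * a.re) 0 :=
        ((hasDerivAt_id (0 : ℝ)).const_mul 2).mul_const a.re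
      have hb : HasDerivAt (fun t : ℝ => t ^ 2 * ‖a‖ ^ 2) ((2 : ℕ) * 0 ^ (2 - 1) * ‖a‖ ^ 2) 0 :=
        (hasDerivAt_pow 2 (0 : ℝ)).mul_const (‖a‖ ^ 2)
      have hc := ((ha.const_add 1).add hb).mul_const (H y)
      exact hc.congr_deriv (by norm_num)
    rw [h5] at h4
    exact h4.unique h6
  have hpi := Real.pi_pos
  set κ : ℝ := (inner ℂ (dsig e y (Y y)) (sig e y) : ℂ).im with hκ
  have h3 : (inner ℂ (dsig e y (Y y)) (sig e y) : ℂ).re = 0 := by
    rw [← inner_conj_symm, Complex.conj_re]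
    exact re_inner_sig_dsig he hy _
  have h4 : vert e H y (Y y) = -Real.pi * (2 * H y - κ) := by
    rw [vert, inner_smul_left]
    simp [hκ]
  have h5 : om (dsig e y (Y y)) (a • sig e y : V) = a.re * κ := by
    rw [om_apply, inner_smul_right, Complex.mul_im, h3, mul_zero, add_zero]
  set v : ℝ := vert e H y (Y y) with hv
  have h6 : om (((v : ℝ) * Complex.I : ℂ) • (sig e y : V)) (dsig e y u) = 0 := by
    rw [om_apply, inner_smul_left]
    simp [re_inner_sig_dsig he hy u]
  have h7 : om (((v : ℝ) * Complex.I : ℂ) • (sig e y : V)) (a • sig e y) = -(v * a.re / Real.pi) := by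
    have h8 : (inner ℂ (sig e y : V) (sig e y) : ℂ) = ((1 / Real.pi : ℝ) : ℂ) := by
      rw [← norm_sig he hy, inner_self_eq_norm_sq_to_K]
      push_cast
      rfl
    rw [om_apply, inner_smul_left, inner_smul_right, h8]
    simp only [map_mul, Complex.conj_ofReal, Complex.conj_I, Complex.mul_im, Complex.mul_re,
      Complex.ofReal_re, Complex.ofReal_im, Complex.neg_re, Complex.neg_im, Complex.I_re,
      Complex.I_im]
    ring
  have h8 : om (dsig e y (Y y) + ((v : ℝ) * Complex.I : ℂ) • sig e y)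
      (dsig e y u + a • sig e y) = om (dsig e y (Y y)) (dsig e y u) +
      om (dsig e y (Y y)) (a • sig e y) +
      (om (((v : ℝ) * Complex.I : ℂ) • (sig e y : V)) (dsig e y u) +
      om (((v : ℝ) * Complex.I : ℂ) • (sig e y : V)) (a • sig e y)) := by
    simp only [om_apply, inner_add_left, inner_add_right, Complex.add_im]
    ring
  rw [h8, map_add, h1, h2, om_dsig he, h5, h6, h7, h4]
  field_simp
  ring

end Fld

end Main

/-- Row G1. -/
theorem G1 : G1_statement.{u} := by
  intro V _ _ _ n e he H Y hH hc hs hY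
  obtain ⟨K, hK⟩ := fld_lip (V := V) he hH hc hs
  obtain ⟨C, hC⟩ := lift_le (V := V) he hH hc hs
  exact ⟨fld e H, K, C, lift_hasFDerivAt he hH hc hs, hK, fld_smul he hH hc hs, lift_smul H,
    fld_off he hH hc hs, fun z => (le_abs_self _).trans (hC z),
    fun y hy => fld_sig he hH hc hs hY hy⟩

end

end Vale.Agent.P209.H447.Nec
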