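import Vale.Agent.P209.H710.Nec.Defs
import Mathlib.Analysis.InnerProductSpace.Dual
import Mathlib.Analysis.InnerProductSpace.Calculus
import Mathlib.Analysis.Normed.Affine.Convex

/-!
# P209, row G1 of the necessity part: auxiliary facts

The form `om`, Lipschitz bounds for homogeneous maps, and elementary facts about the chart.
-/

namespace Vale.Agent.P209.H447.Nec

open scoped ContDiff
open Vale.Agent.P209.H710.Nec

noncomputable section

universe u

section Form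

variable {V : Type u} [NormedAddCommGroup V] [InnerProductSpace ℂ V]

theorem om_sub_left (u w v : V) : om (u - w) v = om u v - om w v := by
  simp [om_apply, inner_sub_left]

theorem om_I_self (u : V) : om u (Complex.I • u) = ‖u‖ ^ 2 := by
  have h := inner_self_eq_norm_sq_to_K (𝕜 := ℂ) u
  rw [om_apply, inner_smul_right, h]
  simp [← Complex.ofReal_pow]

theorem norm_sub_le_om (u w : V) : ‖u - w‖ ≤ ‖om u - om w‖ := by
  by_cases h : ‖u - w‖ = 0
  · rw [h]; exact norm_nonneg _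
  have hpos : 0 < ‖u - w‖ := lt_of_le_of_ne (norm_nonneg _) (Ne.symm h)
  have h1 : (om u - om w) (Complex.I • (u - w)) = ‖u - w‖ ^ 2 := by
    rw [← om_I_self, om_sub_left]; rfl
  have h2 : ‖(om u - om w) (Complex.I • (u - w))‖ ≤ ‖om u - om w‖ * ‖Complex.I • (u - w)‖ :=
    (om u - om w).le_opNorm _
  rw [h1, norm_smul, Complex.norm_I, one_mul, Real.norm_of_nonneg (by positivity)] at h2
  have h3 : ‖u - w‖ * ‖u - w‖ ≤ ‖om u - om w‖ * ‖u - w‖ := by nlinarith
  exact le_of_mul_le_mul_right h3 hpos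

theorem om_injective {u w : V} (h : om u = om w) : u = w := by
  have h1 := norm_sub_le_om u w
  rw [h, sub_self, norm_zero] at h1
  exact sub_eq_zero.mp (norm_le_zero_iff.mp h1)

theorem om_zero : om (0 : V) = 0 := by
  ext v
  simp [om_apply]

theorem om_smul_smul (a : ℂ) (u v : V) : om (a • u) (a • v) = ‖a‖ ^ 2 * om u v := by
  rw [om_apply, om_apply, inner_smul_left, inner_smul_right, ← mul_assoc,
    ← Complex.normSq_eq_conj_mul_self, Complex.normSq_eq_norm_sq, Complex.im_ofReal_mul]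

theorem exists_om [FiniteDimensional ℂ V] (φ : V →L[ℝ] ℝ) : ∃ u : V, om u = φ := by
  have : CompleteSpace V := FiniteDimensional.complete ℂ V
  refine ⟨(InnerProductSpace.toDual ℂ V).symm (Complex.I • StrongDual.extendRCLike φ), ?_⟩
  ext v
  rw [om_apply, InnerProductSpace.toDual_symm_apply]
  have h := StrongDual.extendRCLike_apply (𝕜 := ℂ) φ v
  rw [_root_.smul_apply, h]
  simp

end Form

section Lip

variable {E F : Type*} [NormedAddCommGroup E] [NormedSpace ℝ E] [NormedAddCommGroup F]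
  [NormedSpace ℝ F]

/-- A homogeneous map which is `C¹` off the origin is Lipschitz. -/
theorem lip_of_hom [FiniteDimensional ℝ E] (f : E → F) (hd : ∀ z ≠ 0, ContDiffAt ℝ 1 f z)
    (hh : ∀ t : ℝ, 0 < t → ∀ z, f (t • z) = t • f z) :
    ∃ K, ∀ z w, ‖f z - f w‖ ≤ K * ‖z - w‖ := by
  have hder : ∀ t : ℝ, 0 < t → ∀ z, z ≠ 0 → fderiv ℝ f (t • z) = fderiv ℝ f z := by
    intro t ht z hz
    have h1 : HasFDerivAt f (fderiv ℝ f z) z := ((hd z hz).differentiableAt_one).hasFDerivAt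
    have h2 : HasFDerivAt (fun x : E => t⁻¹ • x) (t⁻¹ • ContinuousLinearMap.id ℝ E) (t • z) :=
      (hasFDerivAt_id (t • z)).const_smul t⁻¹
    have h3 : HasFDerivAt f (fderiv ℝ f z) (t⁻¹ • (t • z)) := by
      rw [smul_smul, inv_mul_cancel₀ ht.ne', one_smul]; exact h1
    have h4 := (h3.comp (t • z) h2).const_smul t
    have h5 : (t • (f ∘ fun x : E => t⁻¹ • x)) = f := by
      funext x
      simp only [Pi.smul_apply, Function.comp]
      rw [← hh t ht, smul_smul, mul_inv_cancel₀ ht.ne', one_smul]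
    have h6 : t • (fderiv ℝ f z).comp (t⁻¹ • ContinuousLinearMap.id ℝ E) = fderiv ℝ f z := by
      ext x
      simp [smul_smul, mul_inv_cancel₀ ht.ne']
    have h7 : HasFDerivAt (t • (f ∘ fun x : E => t⁻¹ • x))
        (t • (fderiv ℝ f z).comp (t⁻¹ • ContinuousLinearMap.id ℝ E)) (t • z) := h4
    rw [h5, h6] at h7
    exact h7.fderiv
  have : ProperSpace E := FiniteDimensional.proper_real E
  obtain ⟨K₀, hK₀⟩ := (isCompact_sphere (0 : E) 1).exists_bound_of_continuousOn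
    (f := fderiv ℝ f) (by
      intro z hz
      have hz0 : z ≠ 0 := by
        rintro rfl
        simp at hz
      have h1 : ContDiffAt ℝ 0 (fderiv ℝ f) z := (hd z hz0).fderiv_right (by norm_num)
      exact h1.continuousAt.continuousWithinAt)
  set K := max K₀ 0 with hK
  have hK0 : 0 ≤ K := le_max_right _ _
  have hb : ∀ z, z ≠ 0 → ‖fderiv ℝ f z‖ ≤ K := by
    intro z hz
    have hzn : 0 < ‖z‖ := norm_pos_iff.mpr hz
    have h1 := hder ‖z‖⁻¹ (inv_pos.mpr hzn) z hz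
    rw [← h1]
    refine le_trans (hK₀ _ ?_) (le_max_left _ _)
    simp [norm_smul, inv_mul_cancel₀ hzn.ne']
  have hseg : ∀ z w : E, (0 : E) ∉ segment ℝ z w → ‖f z - f w‖ ≤ K * ‖z - w‖ := by
    intro z w h0
    refine Convex.norm_image_sub_le_of_norm_hasFDerivWithin_le (𝕜 := ℝ) (s := segment ℝ z w)
      (f' := fderiv ℝ f) ?_ ?_ (convex_segment z w) (right_mem_segment ℝ z w)
      (left_mem_segment ℝ z w)
    · intro x hx
      have hx0 : x ≠ 0 := fun h => h0 (h ▸ hx)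
      exact ((hd x hx0).differentiableAt_one).hasFDerivAt.hasFDerivWithinAt
    · intro x hx
      have hx0 : x ≠ 0 := fun h => h0 (h ▸ hx)
      exact hb x hx0
  have hf0 : f 0 = 0 := by
    have h := hh 2 (by norm_num) 0
    rw [smul_zero, two_smul] at h
    simpa using h
  have hlin : ∀ z : E, ‖f z‖ ≤ K * ‖z‖ := by
    intro z
    by_cases hz : z = 0
    · rw [hz, hf0]; simp
    have h1 : (0 : E) ∉ segment ℝ z ((1 / 2 : ℝ) • z) := by
      rintro ⟨a, b, ha, hb, hab, h⟩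
      rw [smul_smul, ← add_smul] at h
      rcases smul_eq_zero.mp h with h | h
      · nlinarith
      · exact hz h
    have h2 := hseg z ((1 / 2 : ℝ) • z) h1
    have h3 : z - (1 / 2 : ℝ) • z = (1 / 2 : ℝ) • z := by
      rw [sub_eq_iff_eq_add, ← add_smul]; norm_num
    have h4 : f z - f ((1 / 2 : ℝ) • z) = (1 / 2 : ℝ) • f z := by
      rw [hh (1 / 2) (by norm_num), sub_eq_iff_eq_add, ← add_smul]; norm_num
    rw [h3, h4, norm_smul, norm_smul] at h2
    norm_num at h2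
    linarith
  refine ⟨K, fun z w => ?_⟩
  by_cases h0 : (0 : E) ∈ segment ℝ z w
  · have h1 := dist_add_dist_of_mem_segment h0
    rw [dist_zero_right, dist_zero_left, dist_eq_norm] at h1
    calc ‖f z - f w‖ ≤ ‖f z‖ + ‖f w‖ := norm_sub_le _ _
      _ ≤ K * ‖z‖ + K * ‖w‖ := add_le_add (hlin z) (hlin w)
      _ = K * ‖z - w‖ := by rw [← mul_add, h1]
  · exact hseg z w h0

end Lip

section Chart

variable {V : Type u} [NormedAddCommGroup V] [InnerProductSpace ℂ V] {n : ℕ}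
  {e : V ≃ₗ[ℂ] ℂ × (Fin n → ℂ)}

theorem IsUni.norm_sq (he : IsUni e) (z : V) :
    ‖z‖ ^ 2 = ‖(e z).1‖ ^ 2 + nsq (e z).2 := by
  have h := he z z
  rw [inner_self_eq_norm_sq_to_K] at h
  have h2 : ((‖z‖ ^ 2 : ℝ) : ℂ) = ((‖(e z).1‖ ^ 2 + nsq (e z).2 : ℝ) : ℂ) := by
    push_cast [nsq]
    rw [show ((‖z‖ : ℝ) : ℂ) ^ 2 = (RCLike.ofReal ‖z‖ : ℂ) ^ 2 from rfl, h]
    congr 1
    · rw [← Complex.normSq_eq_conj_mul_self, Complex.normSq_eq_norm_sq]; push_cast; rfl
    · refine Finset.sum_congr rfl fun j _ => ?_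
      rw [← Complex.normSq_eq_conj_mul_self, Complex.normSq_eq_norm_sq]; push_cast; rfl
  exact_mod_cast h2

/-- The chart is invariant under complex multiples. -/
theorem chart_smul (a : ℂ) (ha : a ≠ 0) (z : V) : chart e (a • z) = chart e z := by
  funext j
  have ha' : (‖a‖ : ℂ) ≠ 0 := by exact_mod_cast (norm_pos_iff.mpr ha).ne'
  have h1 : a * (starRingEnd ℂ) a = (‖a‖ : ℂ) ^ 2 := by
    rw [Complex.mul_conj, Complex.normSq_eq_norm_sq]; push_cast; rfl
  simp only [chart, map_smul, Prod.smul_fst, Prod.smul_snd, Pi.smul_apply, smul_eq_mul, map_mul,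
    norm_smul, norm_mul]
  push_cast
  rw [show a * (e z).2 j * ((starRingEnd ℂ) a * (starRingEnd ℂ) (e z).1) =
    (‖a‖ : ℂ) ^ 2 * ((e z).2 j * (starRingEnd ℂ) (e z).1) by rw [← h1]; ring,
    show (‖a‖ : ℂ) * (‖(e z).1‖ : ℂ) * ((Real.sqrt Real.pi : ℂ) * ((‖a‖ : ℂ) * (‖z‖ : ℂ))) =
    (‖a‖ : ℂ) ^ 2 * ((‖(e z).1‖ : ℂ) * ((Real.sqrt Real.pi : ℂ) * (‖z‖ : ℂ))) by ring,
    mul_div_mul_left _ _ (pow_ne_zero 2 ha')]

theorem lift_smul (H : (Fin n → ℂ) → ℝ) (a : ℂ) (z : V) :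
    lift e H (a • z) = ‖a‖ ^ 2 * lift e H z := by
  by_cases ha : a = 0
  · simp [ha, lift]
  simp only [lift, map_smul, Prod.smul_fst, smul_eq_mul, mul_eq_zero, ha, false_or, norm_smul,
    chart_smul a ha z]
  split_ifs
  · simp
  · ring

theorem nsq_chart (he : IsUni e) (z : V) (hz : (e z).1 ≠ 0) :
    Real.pi * nsq (chart e z) * ‖z‖ ^ 2 = ‖z‖ ^ 2 - ‖(e z).1‖ ^ 2 := by
  have hz0 : z ≠ 0 := by
    rintro rfl
    simp at hz
  have h1 : ‖z‖ ≠ 0 := norm_ne_zero_iff.mpr hz0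
  have h2 : ‖(e z).1‖ ≠ 0 := norm_ne_zero_iff.mpr hz
  have h3 : Real.sqrt Real.pi ≠ 0 := (Real.sqrt_pos.mpr Real.pi_pos).ne'
  have h4 : Real.sqrt Real.pi ^ 2 = Real.pi := Real.sq_sqrt Real.pi_pos.le
  have h5 : ∀ j, ‖chart e z j‖ ^ 2 = ‖(e z).2 j‖ ^ 2 / (Real.pi * ‖z‖ ^ 2) := by
    intro j
    simp only [chart, norm_div, norm_mul, RCLike.norm_conj, Complex.norm_real, Real.norm_eq_abs,
      abs_norm, abs_of_nonneg (Real.sqrt_nonneg Real.pi)]
    rw [mul_comm ‖(e z).2 j‖, mul_div_mul_left _ _ h2, div_pow, mul_pow, h4]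
  have h6 : nsq (chart e z) = nsq (e z).2 / (Real.pi * ‖z‖ ^ 2) := by
    simp only [nsq, h5, Finset.sum_div]
  rw [h6, IsUni.norm_sq he z]
  have h7 : ‖(e z).1‖ ^ 2 + nsq (e z).2 ≠ 0 := by
    rw [← IsUni.norm_sq he z]; positivity
  field_simp
  ring

theorem rad_pos {y : Fin n → ℂ} (hy : y ∈ openBall n 1) : 0 < rad y := by
  have h : Real.pi * nsq y < 1 := hy
  refine Real.sqrt_pos.mpr (sub_pos.mpr ?_)
  rw [lt_div_iff₀ Real.pi_pos, mul_comm]
  exact h

theorem e_sig (y : Fin n → ℂ) : e (sig e y) = ((rad y : ℂ), y) := by simp [sig]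

theorem norm_sig (he : IsUni e) {y : Fin n → ℂ} (hy : y ∈ openBall n 1) :
    ‖sig e y‖ ^ 2 = 1 / Real.pi := by
  have h : Real.pi * nsq y < 1 := hy
  rw [IsUni.norm_sq he, e_sig]
  simp only [Complex.norm_real, Real.norm_eq_abs, sq_abs]
  rw [rad, Real.sq_sqrt]
  · ring
  · rw [sub_nonneg, le_div_iff₀ Real.pi_pos, mul_comm]; exact h.le

theorem chart_sig (he : IsUni e) {y : Fin n → ℂ} (hy : y ∈ openBall n 1) :
    chart e (sig e y) = y := by
  have h1 := rad_pos hy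
  have h2 : ‖sig e y‖ = Real.sqrt (1 / Real.pi) := by
    rw [← norm_sig he hy, Real.sqrt_sq (norm_nonneg _)]
  have h3 : Real.sqrt Real.pi * Real.sqrt (1 / Real.pi) = 1 := by
    rw [← Real.sqrt_mul Real.pi_pos.le, mul_one_div_cancel Real.pi_ne_zero, Real.sqrt_one]
  funext j
  simp only [chart, e_sig, h2, h3, Complex.conj_ofReal, Complex.norm_real, Real.norm_eq_abs,
    abs_of_pos h1, mul_one]
  exact mul_div_cancel_right₀ _ (by exact_mod_cast h1.ne')

theorem lift_sig (he : IsUni e) (H : (Fin n → ℂ) → ℝ) {y : Fin n → ℂ} (hy : y ∈ openBall n 1) :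
    lift e H (sig e y) = H y := by
  have h1 := rad_pos hy
  have h2 : ((rad y : ℝ) : ℂ) ≠ 0 := by exact_mod_cast h1.ne'
  rw [lift, norm_sig he hy, chart_sig he hy, e_sig]
  simp [h2]

/-- The chart is smooth. -/
theorem chart_contDiffAt [FiniteDimensional ℂ V] (z : V) (hz : (e z).1 ≠ 0) :
    ContDiffAt ℝ ∞ (chart e) z := by
  have hz0 : z ≠ 0 := by
    rintro rfl
    simp at hz
  have h1 : ‖z‖ ≠ 0 := norm_ne_zero_iff.mpr hz0
  have h2 : ‖(e z).1‖ ≠ 0 := norm_ne_zero_iff.mpr hz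
  have h3 : Real.sqrt Real.pi ≠ 0 := (Real.sqrt_pos.mpr Real.pi_pos).ne'
  set L : V →L[ℂ] ℂ × (Fin n → ℂ) := LinearMap.toContinuousLinearMap e.toLinearMap with hL
  have hLe : ∀ x, L x = e x := fun x => rfl
  have hLs : ContDiff ℝ ∞ (fun x => L x) := (L.restrictScalars ℝ).contDiff
  have ha : ContDiff ℝ ∞ (fun x => (L x).1) := contDiff_fst.comp hLs
  have hb : ∀ j, ContDiff ℝ ∞ (fun x => (L x).2 j) := fun j =>
    (contDiff_apply ℝ ℂ j).comp (contDiff_snd.comp hLs)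
  rw [contDiffAt_pi]
  intro j
  have hc : ContDiffAt ℝ ∞ (fun x => (L x).2 j * (starRingEnd ℂ) (L x).1) z :=
    ((hb j).mul ((Complex.conjCLE.toContinuousLinearMap.contDiff).comp ha)).contDiffAt
  have hd1 : ContDiffAt ℝ ∞ (fun x : V => ‖x‖) z := contDiffAt_norm ℂ hz0
  have hd2 : ContDiffAt ℝ ∞ (fun x : V => ‖(L x).1‖) z :=
    ContDiffAt.norm ℂ ha.contDiffAt hz
  have hd : ContDiffAt ℝ ∞ (fun x : V => ‖(L x).1‖ * (Real.sqrt Real.pi * ‖x‖)) z :=
    hd2.mul (contDiffAt_const.mul hd1)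
  have hd' : ContDiffAt ℝ ∞
      (fun x : V => ((‖(L x).1‖ * (Real.sqrt Real.pi * ‖x‖) : ℝ) : ℂ)) z :=
    (Complex.ofRealCLM.contDiff.contDiffAt).comp z hd
  have h5 : ‖(L z).1‖ * (Real.sqrt Real.pi * ‖z‖) ≠ 0 := mul_ne_zero h2 (mul_ne_zero h3 h1)
  have h6 : ((‖(L z).1‖ * (Real.sqrt Real.pi * ‖z‖) : ℝ) : ℂ) ≠ 0 := by exact_mod_cast h5
  exact hc.mul (hd'.inv h6)

end Chart

end

end Vale.Agent.P209.H447.Nec
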